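import Vale.Agent.N026B.Sieve

/-!
# P026, third hand-in: the sieve for an arbitrary finite set of primes
-/

namespace Vale.Agent.N026B

open Finset

theorem dyadic_card (S : Finset ℕ) (i : ℕ) (hS : ∀ p ∈ S, p.Prime ∧ Nat.log 2 p = i) :
    i * S.card ≤ 2 ^ (i + 2) := by
  have h1 : (2 ^ i) ^ S.card ≤ ∏ p ∈ S, p := by
    refine pow_card_le_prod S (fun p => p) _ fun p hp => ?_
    rw [← (hS p hp).2]
    exact Nat.pow_log_le_self 2 (hS p hp).1.ne_zero
  have h2 : ∏ p ∈ S, p ≤ primorial (2 ^ (i + 1)) := by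
    refine prod_le_prod_of_subset_of_one_le' (fun p hp => ?_) fun p hp _ =>
      (mem_filter.1 hp).2.one_le
    refine mem_filter.2 ⟨mem_range.2 (Nat.lt_succ_of_lt ?_), (hS p hp).1⟩
    rw [← (hS p hp).2]
    exact Nat.lt_pow_succ_log_self (by norm_num) p
  have h3 := (h1.trans h2).trans (primorial_le_four_pow _)
  rw [← pow_mul, show 4 = 2 ^ 2 from rfl, ← pow_mul, ← pow_succ'] at h3
  exact (Nat.pow_le_pow_iff_right (by norm_num)).1 h3

theorem block_sum (B : Finset ℕ) (j : ℕ)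
    (hB : ∀ p ∈ B, p.Prime ∧ 2 ^ 2 ^ j ≤ p ∧ p < 2 ^ 2 ^ (j + 1)) : ∑ a ∈ B, dn a ≤ 4 := by
  have hmap : ∀ p ∈ B, Nat.log 2 p ∈ Ico (2 ^ j) (2 ^ (j + 1)) := fun p hp =>
    mem_Ico.2 ⟨Nat.le_log_of_pow_le (by norm_num) (hB p hp).2.1,
      Nat.log_lt_of_lt_pow (hB p hp).1.ne_zero (hB p hp).2.2⟩
  rw [← sum_fiberwise_of_maps_to hmap]
  have h1 : ∀ i ∈ Ico (2 ^ j) (2 ^ (j + 1)),
      ∑ p ∈ B with Nat.log 2 p = i, dn p ≤ 4 / (2 : ℝ) ^ j := by
    intro i hi
    have hi1 : 2 ^ j ≤ i := (mem_Ico.1 hi).1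
    have hc := dyadic_card (B.filter fun p => Nat.log 2 p = i) i fun p hp =>
      ⟨(hB p (mem_filter.1 hp).1).1, (mem_filter.1 hp).2⟩
    have hc' : (2 : ℝ) ^ j * (B.filter fun p => Nat.log 2 p = i).card ≤ 2 ^ (i + 2) := by
      exact_mod_cast (Nat.mul_le_mul_right _ hi1).trans hc
    have h2 : ∑ p ∈ B with Nat.log 2 p = i, dn p ≤
        (B.filter fun p => Nat.log 2 p = i).card • (1 / (2 : ℝ) ^ i) := by
      refine sum_le_card_nsmul _ _ _ fun p hp => ?_
      have : 2 ^ i ≤ p := by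
        rw [← (mem_filter.1 hp).2]
        exact Nat.pow_log_le_self 2 (hB p (mem_filter.1 hp).1).1.ne_zero
      exact one_div_le_one_div_of_le (by positivity) (by exact_mod_cast this)
    refine h2.trans ?_
    rw [nsmul_eq_mul, mul_one_div, div_le_div_iff₀ (by positivity) (by positivity)]
    rw [pow_add] at hc'
    linarith
  refine (sum_le_card_nsmul _ _ _ h1).trans (le_of_eq ?_)
  rw [Nat.card_Ico, nsmul_eq_mul, pow_succ, Nat.mul_two, Nat.add_sub_cancel]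
  push_cast
  field_simp

theorem prod_ge_exp (B : Finset ℕ) (hB : ∀ p ∈ B, 2 ≤ p) :
    Real.exp (-(2 * ∑ a ∈ B, dn a)) ≤ ∏ a ∈ B, (1 - dn a) := by
  rw [mul_sum, ← sum_neg_distrib, Real.exp_sum]
  refine prod_le_prod (fun _ _ => (Real.exp_pos _).le) fun p hp => ?_
  have h0 := (dn_mem p).1
  have h1 : dn p ≤ 1 / 2 := one_div_le_one_div_of_le (by norm_num) (by exact_mod_cast hB p hp)
  rw [Real.exp_neg, inv_le_comm₀ (Real.exp_pos _) (by linarith)]
  refine le_trans ?_ (Real.add_one_le_exp _)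
  rw [inv_le_iff_one_le_mul₀ (by linarith)]
  nlinarith

theorem num_bound (i : ℕ) :
    (4 : ℝ) ^ (2 * i + 18 + 1) / (2 * i + 18 + 1).factorial ≤ 1 / 2 ^ i / 8 * (1 / 3 ^ 8) := by
  induction i with
  | zero => norm_num [Nat.factorial]
  | succ i ih =>
    have e : 2 * (i + 1) + 18 + 1 = 2 * i + 18 + 1 + 1 + 1 := by ring
    have hf : (0 : ℝ) < (2 * i + 18 + 1).factorial := by positivity
    have h1 : (4 : ℝ) ^ (2 * (i + 1) + 18 + 1) / (2 * (i + 1) + 18 + 1).factorial ≤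
        4 ^ (2 * i + 18 + 1) / (2 * i + 18 + 1).factorial * (1 / 2) := by
      rw [e, Nat.factorial_succ, Nat.factorial_succ (2 * i + 18 + 1), pow_succ, pow_succ,
        div_mul_div_comm, div_le_div_iff₀ (by positivity) (by positivity)]
      push_cast
      have h2 : (32 : ℝ) ≤ (2 * i + 18 + 1 + 1 + 1) * (2 * i + 18 + 1 + 1) := by
        nlinarith [Nat.cast_nonneg (α := ℝ) i]
      have h3 := mul_le_mul_of_nonneg_left h2
        (show (0 : ℝ) ≤ 4 ^ (2 * i + 18 + 1) * (2 * i + 18 + 1).factorial by positivity)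
      nlinarith
    refine h1.trans ((mul_le_mul_of_nonneg_right ih (by norm_num)).trans (le_of_eq ?_))
    rw [pow_succ (2 : ℝ) i]
    field_simp

theorem good_small (L : Finset ℕ) (hL : ∀ p ∈ L, p.Prime) (J j : ℕ) (hj : j ≤ J) :
    Good (L.filter (· < 2 ^ 2 ^ j)) (2 ^ (2 ^ (j + 1) * (2 * (J - j) + 22)))
      (1 / 2 ^ (J - j) / 4) := by
  induction j with
  | zero =>
    have : L.filter (· < 2 ^ 2 ^ 0) = ∅ :=
      filter_eq_empty_iff.2 fun p hp => by simpa using (hL p hp).one_lt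
    rw [this]
    exact good_empty.mono (one_le_pow₀ (by norm_num)) (by positivity)
  | succ j ih =>
    obtain ⟨i, hi⟩ := Nat.exists_eq_add_of_le hj
    have e1 : J - j = i + 1 := by omega
    have e2 : J - (j + 1) = i := by omega
    set B := L.filter fun p => 2 ^ 2 ^ j ≤ p ∧ p < 2 ^ 2 ^ (j + 1) with hB
    have hBm : ∀ p ∈ B, p.Prime ∧ 2 ^ 2 ^ j ≤ p ∧ p < 2 ^ 2 ^ (j + 1) := fun p hp =>
      ⟨hL p (mem_filter.1 hp).1, (mem_filter.1 hp).2⟩
    have hs := block_sum B j hBm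
    have hs0 : 0 ≤ ∑ a ∈ B, dn a := sum_nonneg fun a _ => (dn_mem a).1
    have hp : 1 / (3 : ℝ) ^ 8 ≤ ∏ a ∈ B, (1 - dn a) := by
      refine le_trans ?_ (prod_ge_exp B fun p hp => (hBm p hp).1.two_le)
      refine le_trans ?_ (Real.exp_le_exp.2 (show -((8 : ℕ) * (1 : ℝ)) ≤ _ by push_cast; linarith))
      rw [Real.exp_neg, Real.exp_nat_mul, one_div]
      exact inv_anti₀ (by positivity)
        (pow_le_pow_left₀ (Real.exp_pos _).le Real.exp_one_lt_three.le 8)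
    have h := (ih (by omega)).step (B := B) (by positivity)
      (disjoint_filter.2 fun p _ h1 h2 => absurd h1.1 (not_le.2 h2)) (k := 2 * i + 18)
      (η' := 1 / 2 ^ i / 8) ⟨i + 9, by ring⟩ (by positivity)
      (le_trans (by gcongr) ((num_bound i).trans (mul_le_mul_of_nonneg_left hp (by positivity))))
    have hU : B ∪ L.filter (· < 2 ^ 2 ^ j) = L.filter (· < 2 ^ 2 ^ (j + 1)) := by
      have : 2 ^ 2 ^ j ≤ 2 ^ 2 ^ (j + 1) :=
        Nat.pow_le_pow_right (by norm_num) (Nat.pow_le_pow_right (by norm_num) (Nat.le_succ j))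
      ext p
      simp only [hB, mem_union, mem_filter]
      constructor
      · rintro (⟨h1, -, h2⟩ | ⟨h1, h2⟩)
        exacts [⟨h1, h2⟩, ⟨h1, by omega⟩]
      · rintro ⟨h1, h2⟩
        by_cases h3 : p < 2 ^ 2 ^ j
        exacts [Or.inr ⟨h1, h3⟩, Or.inl ⟨h1, by omega, h2⟩]
    rw [hU, e1] at h
    rw [e2]
    have hc : B.card + 1 ≤ 2 ^ 2 ^ (j + 1) := by
      have h1 : B ⊆ Ico 1 (2 ^ 2 ^ (j + 1)) := fun p hp =>
        mem_Ico.2 ⟨(hBm p hp).1.one_le, (hBm p hp).2.2⟩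
      have h2 := card_le_card h1
      rw [Nat.card_Ico] at h2
      have : 0 < 2 ^ 2 ^ (j + 1) := by positivity
      omega
    refine h.mono ?_ (le_of_eq (by rw [pow_succ]; field_simp; norm_num))
    have hc' : (B.card : ℝ) + 1 ≤ 2 ^ 2 ^ (j + 1) := by exact_mod_cast hc
    calc 2 * ((B.card : ℝ) + 1) ^ (2 * i + 18 + 1) * 2 ^ (2 ^ (j + 1) * (2 * (i + 1) + 22))
        ≤ 2 ^ 2 ^ (j + 1) * (2 ^ 2 ^ (j + 1)) ^ (2 * i + 18 + 1) *
          2 ^ (2 ^ (j + 1) * (2 * (i + 1) + 22)) := by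
          gcongr
          exact le_self_pow₀ (by norm_num) (by positivity)
      _ = 2 ^ (2 ^ (j + 1 + 1) * (2 * i + 22)) := by
          rw [← pow_mul, ← pow_add, ← pow_add]
          congr 1
          ring

theorem good_all (L : Finset ℕ) (hL : ∀ p ∈ L, p.Prime) :
    Good L ((4 * (L.card + 1)) ^ 89) (3 / 4) := by
  set a := Nat.log 2 (4 * (L.card + 1)) with ha
  have ha0 : a ≠ 0 := by
    have : 2 ≤ a := Nat.le_log_of_pow_le (by norm_num) (by omega)
    omega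
  set J := Nat.log 2 a + 1 with hJ
  have h1 : 4 * (L.card + 1) < 2 ^ 2 ^ J :=
    (Nat.lt_pow_succ_log_self (by norm_num) _).trans_le
      (Nat.pow_le_pow_right (by norm_num) (Nat.lt_pow_succ_log_self (by norm_num) a))
  have h2 : 2 ^ 2 ^ J ≤ (4 * (L.card + 1)) ^ 2 := by
    have h3 : 2 ^ J ≤ a * 2 := by
      rw [hJ, pow_succ]
      exact Nat.mul_le_mul_right 2 (Nat.pow_log_le_self 2 ha0)
    refine (Nat.pow_le_pow_right (by norm_num) h3).trans ?_
    rw [pow_mul]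
    exact Nat.pow_le_pow_left (Nat.pow_log_le_self 2 (by omega)) 2
  set B := L.filter fun p => ¬ p < 2 ^ 2 ^ J with hB
  have hBc : (B.card : ℝ) ≤ L.card := by exact_mod_cast card_filter_le _ _
  have hr : (0 : ℝ) ≤ L.card := Nat.cast_nonneg _
  have hs : ∑ p ∈ B, dn p ≤ 1 / 4 := by
    have h3 : ∑ p ∈ B, dn p ≤ B.card • (1 / (4 * ((L.card : ℝ) + 1))) := by
      refine sum_le_card_nsmul _ _ _ fun p hp => one_div_le_one_div_of_le (by positivity) ?_
      have : 4 * (L.card + 1) ≤ p := by have := (mem_filter.1 hp).2; omega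
      exact_mod_cast this
    refine h3.trans ?_
    rw [nsmul_eq_mul, mul_one_div, div_le_div_iff₀ (by positivity) (by positivity)]
    linarith
  have hp : 1 / 2 ≤ ∏ p ∈ B, (1 - dn p) := by
    refine le_trans ?_ (prod_ge_exp B fun p hp => (hL p (mem_filter.1 hp).1).two_le)
    have := Real.add_one_le_exp (-(2 * ∑ p ∈ B, dn p))
    linarith
  have h := (good_small L hL J J le_rfl).step (B := B) (by positivity)
    (disjoint_filter.2 fun p _ h1 h2 => h1 h2) (k := 0) (η' := 1 / 2) ⟨0, rfl⟩ (by norm_num)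
    (by simp only [zero_add, pow_one, Nat.factorial_one, Nat.cast_one, div_one]; linarith)
  rw [hB, union_comm, filter_union_filter_not_eq] at h
  refine h.mono ?_ (by norm_num)
  have h2' : (2 : ℝ) ^ 2 ^ J ≤ (4 * (L.card + 1)) ^ 2 := by exact_mod_cast h2
  rw [← hB, Nat.sub_self]
  calc 2 * ((B.card : ℝ) + 1) ^ (0 + 1) * 2 ^ (2 ^ (J + 1) * (2 * 0 + 22))
      = 2 * ((B.card : ℝ) + 1) * (2 ^ 2 ^ J) ^ 44 := by
        rw [← pow_mul, zero_add, pow_one, pow_succ 2 J, mul_assoc (2 ^ J),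
          show 2 * (2 * 0 + 22) = 44 from rfl]
    _ ≤ 4 * ((L.card : ℝ) + 1) * ((4 * ((L.card : ℝ) + 1)) ^ 2) ^ 44 :=
        mul_le_mul (by linarith) (pow_le_pow_left₀ (by positivity) h2' 44) (by positivity)
          (by positivity)
    _ = (4 * ((L.card : ℝ) + 1)) ^ 89 := by rw [← pow_mul, ← pow_succ']

theorem prod_ge_inv (L : Finset ℕ) (hL : ∀ p ∈ L, 2 ≤ p) :
    1 / ((L.card : ℝ) + 1) ≤ ∏ p ∈ L, (1 - dn p) := by
  induction L using Finset.induction_on_max with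
  | empty => simp
  | insert a s ha ih =>
    have hn : a ∉ s := fun h => lt_irrefl _ (ha a h)
    have h1 : s ⊆ Ico 2 a := fun p hp => mem_Ico.2 ⟨hL p (mem_insert_of_mem hp), ha p hp⟩
    have h2 := card_le_card h1
    rw [Nat.card_Ico] at h2
    have h3 : s.card + 2 ≤ a := by have := hL a (mem_insert_self _ _); omega
    have h4 : dn a ≤ 1 / ((s.card : ℝ) + 2) :=
      one_div_le_one_div_of_le (by positivity) (by exact_mod_cast h3)
    rw [prod_insert hn, card_insert_of_notMem hn]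
    refine le_trans (le_of_eq ?_) (mul_le_mul (show 1 - 1 / ((s.card : ℝ) + 2) ≤ _ by linarith)
      (ih fun p hp => hL p (mem_insert_of_mem hp)) (by positivity) (by linarith [(dn_mem a).2]))
    push_cast
    field_simp
    ring

/-- the sieve: a weighted family of points that is close to independent on all monomials has
a point at which the product does not vanish. -/
theorem sieve (L : Finset ℕ) (hL : ∀ p ∈ L, p.Prime) (P : Finset ℕ) (w : ℕ → ℝ)
    (hw : ∀ n, 0 ≤ w n) (v : ℕ → ℕ → ℝ) (hv : ∀ n a, 0 ≤ v n a ∧ v n a ≤ 1) (y Δ : ℝ)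
    (hy : 0 ≤ y) (hΔ : ∀ T ⊆ L, |∑ n ∈ P, w n * ∏ l ∈ T, v n l - y * ∏ l ∈ T, dn l| ≤ Δ)
    (hlt : (4 * ((L.card : ℝ) + 1)) ^ 90 * Δ < y) : ∃ n ∈ P, ∏ l ∈ L, (1 - v n l) ≠ 0 := by
  obtain ⟨U, Lo, -, h2, h3, h4⟩ := good_all L hL
  let Φ : ((ℕ → ℝ) → ℝ) →ₗ[ℝ] ℝ :=
    ∑ n ∈ P, w n • LinearMap.proj (v n) - y • LinearMap.proj dn
  have hΦ : ∀ F, Φ F = ∑ n ∈ P, w n * F (v n) - y * F dn := fun F => by
    simp [Φ, LinearMap.sum_apply]
  have h5 := h2 Φ Δ fun T hT => by rw [hΦ]; exact hΔ T hT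
  rw [hΦ] at h5
  by_contra hcon
  push Not at hcon
  have h6 : ∑ n ∈ P, w n * Lo (v n) ≤ 0 := sum_nonpos fun n hn =>
    mul_nonpos_of_nonneg_of_nonpos (hw n) ((h3 _ (hv n)).1.trans (hcon n hn).le)
  have h7 := (prod_ge_inv L fun p hp => (hL p hp).two_le).trans (h3 dn dn_mem).2
  have h8 : y * (1 / (4 * ((L.card : ℝ) + 1))) ≤ y * Lo dn := by
    refine mul_le_mul_of_nonneg_left ?_ hy
    rw [← one_div_mul_one_div]
    linarith
  have h9 := (abs_le.1 h5).1
  rw [mul_one_div, div_le_iff₀ (by positivity)] at h8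
  have h10 : y * Lo dn * (4 * ((L.card : ℝ) + 1)) ≤
      (4 * ((L.card : ℝ) + 1)) ^ 89 * Δ * (4 * ((L.card : ℝ) + 1)) :=
    mul_le_mul_of_nonneg_right (by linarith) (by positivity)
  rw [pow_succ] at hlt
  linarith

end Vale.Agent.N026B
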