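import Vale.Agent.N026.App
import Vale.Agent.N026B.Blocks

/-!
# P026, third hand-in: small primes in cosets of subgroups of `(ℤ/q)ˣ`
-/

namespace Vale.Agent.N026B

open Finset ArithmeticFunction Vale.Agent.P005Z.PT
open scoped Classical

/-- the prime number theorem for characters with a power saving. -/
def ThetaBound (θ C : ℝ) : Prop :=
  ∀ (q : ℕ) [NeZero q] (χ : DirichletCharacter ℂ q) (y : ℕ), 1 ≤ y →
    ‖∑ n ∈ Icc 1 y with n.Prime, χ n * (Real.log n : ℂ) - (if χ = 1 then 1 else 0) * y‖ ≤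
      C * (1 + Real.log q) * (y : ℝ) ^ θ

theorem thetaBound (h : QRH) {θ : ℝ} (hθ : 11 / 12 < θ) : ∃ C : ℝ, 1 ≤ C ∧ ThetaBound θ C := by
  obtain ⟨C, hC, H⟩ := N026.psi_char h hθ
  obtain ⟨D, hD⟩ := Chebyshev.psi_sub_theta_le_mul_sqrt
  refine ⟨C + |D|, by linarith [abs_nonneg D], fun q _ χ y hy => ?_⟩
  have hy' : (1 : ℝ) ≤ y := by exact_mod_cast hy
  have hq : 0 ≤ Real.log q := Real.log_natCast_nonneg q
  have h1 := H q χ y hy
  rw [← sum_filter_add_sum_filter_not (Icc 1 y) Nat.Prime] at h1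
  have h2 : ∑ n ∈ Icc 1 y with n.Prime, χ n * (vonMangoldt n : ℂ) =
      ∑ n ∈ Icc 1 y with n.Prime, χ n * (Real.log n : ℂ) :=
    sum_congr rfl fun n hn => by rw [vonMangoldt_apply_prime (mem_filter.1 hn).2]
  have h3 : ‖∑ n ∈ Icc 1 y with ¬ n.Prime, χ n * (vonMangoldt n : ℂ)‖ ≤ |D| * (y : ℝ) ^ θ := by
    refine (norm_sum_le _ _).trans ?_
    have h4 : ∑ n ∈ Icc 1 y with ¬ n.Prime, ‖χ n * (vonMangoldt n : ℂ)‖ ≤
        ∑ n ∈ Icc 1 y with ¬ n.Prime, vonMangoldt n := sum_le_sum fun n _ => by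
      rw [norm_mul, Complex.norm_real, Real.norm_of_nonneg vonMangoldt_nonneg]
      exact mul_le_of_le_one_left vonMangoldt_nonneg (χ.norm_le_one _)
    have h5 := hD y
    rw [Chebyshev.psi_sub_theta_eq_sum_not_prime, Nat.floor_natCast] at h5
    refine h4.trans (h5.trans (mul_le_mul (le_abs_self D) ?_ (Real.sqrt_nonneg _) (abs_nonneg D)))
    rw [Real.sqrt_eq_rpow]
    exact Real.rpow_le_rpow_of_exponent_le hy' (by linarith)
  rw [h2, add_sub_right_comm] at h1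
  have h6 := norm_le_add_norm_add (∑ n ∈ Icc 1 y with n.Prime, χ n * (Real.log n : ℂ) -
    (if χ = 1 then 1 else 0) * y) (∑ n ∈ Icc 1 y with ¬ n.Prime, χ n * (vonMangoldt n : ℂ))
  have h7 : 0 ≤ |D| * Real.log q * (y : ℝ) ^ θ := by positivity
  nlinarith

variable {q : ℕ} [NeZero q]

/-- the characters trivial on `H`. -/
noncomputable def dual (H : Subgroup (ZMod q)ˣ) : Finset (DirichletCharacter ℂ q) :=
  univ.filter fun χ => ∀ m ∈ H, χ m = 1

theorem mem_dual {H : Subgroup (ZMod q)ˣ} {χ : DirichletCharacter ℂ q} :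
    χ ∈ dual H ↔ ∀ m ∈ H, χ m = 1 := by simp [dual]

theorem card_dual (H : Subgroup (ZMod q)ˣ) : (dual H).card = H.index := by
  rw [Subgroup.index, ← MulChar.card_subgroupOrderIsoSubgroupMulChar (R := ℂ),
    ← Nat.card_eq_finsetCard]
  exact Nat.card_congr (Equiv.subtypeEquivRight fun χ => by
    rw [mem_dual, MulChar.mem_subgroupOrderIsoSubgroupMulChar_iff])

theorem exists_dual {H : Subgroup (ZMod q)ˣ} {g : (ZMod q)ˣ} (hg : g ∉ H) :
    ∃ χ ∈ dual H, χ g ≠ 1 := by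
  by_contra hcon
  push Not at hcon
  apply hg
  rw [← (MulChar.subgroupOrderIsoSubgroupMulChar (ZMod q) ℂ).symm_apply_apply H]
  exact MulChar.mem_subgroupOrderIsoSubgroupMulChar_symm_iff.2 fun χ hχ =>
    hcon χ (mem_dual.2 (MulChar.mem_subgroupOrderIsoSubgroupMulChar_iff.1 hχ))

theorem sum_dual (H : Subgroup (ZMod q)ˣ) (g : (ZMod q)ˣ) :
    ∑ χ ∈ dual H, χ g = if g ∈ H then (H.index : ℂ) else 0 := by
  split_ifs with hg
  · rw [sum_congr rfl fun χ hχ => mem_dual.1 hχ g hg, sum_const, card_dual]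
    simp
  · obtain ⟨ψ, hψ, hne⟩ := exists_dual hg
    refine eq_zero_of_mul_eq_self_left hne ?_
    simp only [mul_sum, ← MulChar.mul_apply]
    refine sum_bijective _ (Group.mulLeft_bijective ψ) (fun χ => ?_) fun _ _ => rfl
    simp only [mem_dual, MulChar.mul_apply]
    refine forall₂_congr fun m hm => ?_
    rw [mem_dual.1 hψ m hm, one_mul]

/-- `n` is coprime to `q` and lies in the coset `a H`. -/
def InC (H : Subgroup (ZMod q)ˣ) (a : (ZMod q)ˣ) (n : ℕ) : Prop :=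
  ∃ hn : n.Coprime q, a⁻¹ * ZMod.unitOfCoprime n hn ∈ H

theorem sum_dual_nat (H : Subgroup (ZMod q)ˣ) (a : (ZMod q)ˣ) (n : ℕ) :
    ∑ χ ∈ dual H, χ (a⁻¹ : (ZMod q)ˣ) * χ n = if InC H a n then (H.index : ℂ) else 0 := by
  by_cases hn : n.Coprime q
  · have := sum_dual H (a⁻¹ * ZMod.unitOfCoprime n hn)
    simp only [Units.val_mul, map_mul, ZMod.coe_unitOfCoprime] at this
    rw [this]
    exact if_congr ⟨fun h => ⟨hn, h⟩, fun h => h.2⟩ rfl rfl
  · rw [if_neg fun h => hn h.1]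
    refine sum_eq_zero fun χ _ => ?_
    rw [χ.map_nonunit fun h => hn ((ZMod.isUnit_iff_coprime n q).1 h), mul_zero]

theorem coset_sum {θ C : ℝ} (h : ThetaBound θ C) (H : Subgroup (ZMod q)ˣ) (a : (ZMod q)ˣ) {y : ℕ}
    (hy : 1 ≤ y) : |∑ n ∈ (Icc 1 y).filter Nat.Prime with InC H a n, Real.log n - y / H.index| ≤
      C * (1 + Real.log q) * (y : ℝ) ^ θ := by
  have hi : (0 : ℝ) < H.index := by exact_mod_cast Nat.pos_of_ne_zero H.index_ne_zero_of_finite
  have h1 : (H.index : ℂ) * ∑ n ∈ (Icc 1 y).filter Nat.Prime with InC H a n, (Real.log n : ℂ) - y =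
      ∑ χ ∈ dual H, χ (a⁻¹ : (ZMod q)ˣ) * (∑ n ∈ Icc 1 y with n.Prime, χ n * (Real.log n : ℂ) -
        (if χ = 1 then 1 else 0) * y) := by
    simp only [mul_sub, sum_sub_distrib, mul_sum, ← mul_assoc]
    congr 1
    · rw [sum_comm, sum_filter]
      refine sum_congr rfl fun n _ => ?_
      rw [← sum_mul, sum_dual_nat]
      split_ifs <;> simp
    · rw [sum_eq_single_of_mem 1 (mem_dual.2 fun m _ => MulChar.one_apply_coe m)]
      · simp [MulChar.one_apply_coe]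
      · intro χ _ hχ
        simp [hχ]
  have h2 : ‖(H.index : ℂ) * ∑ n ∈ (Icc 1 y).filter Nat.Prime with InC H a n, (Real.log n : ℂ) -
      y‖ ≤ H.index * (C * (1 + Real.log q) * (y : ℝ) ^ θ) := by
    rw [h1]
    refine (norm_sum_le _ _).trans ((sum_le_card_nsmul _ _ _ fun χ _ => ?_).trans
      (by rw [card_dual, nsmul_eq_mul]))
    rw [norm_mul]
    exact (mul_le_of_le_one_left (norm_nonneg _) (χ.norm_le_one _)).trans (h q χ y hy)
  rw [← Complex.ofReal_sum, ← Complex.ofReal_natCast, ← Complex.ofReal_natCast,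
    ← Complex.ofReal_mul, ← Complex.ofReal_sub, Complex.norm_real, Real.norm_eq_abs] at h2
  refine le_of_mul_le_mul_left (le_trans (le_of_eq ?_) h2) hi
  rw [← abs_of_pos hi, ← abs_mul, abs_of_pos hi, mul_sub, mul_div_cancel₀ _ hi.ne']

theorem exists_size {θ κ K : ℝ} (hκ : 0 < κ) (hθ : κ * (1 - θ) = 1) (hK : 1 ≤ K) :
    ∃ y : ℕ, 1 ≤ y ∧ K * (y : ℝ) ^ θ < y ∧ (y : ℝ) ≤ 2 * K ^ κ := by
  have h1 : 1 ≤ K ^ κ := Real.one_le_rpow hK hκ.le
  have h2 : K ^ κ < (⌊K ^ κ⌋₊ + 1 : ℕ) := by push_cast; exact Nat.lt_floor_add_one _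
  have h3 : 0 < 1 - θ := by
    by_contra hh
    nlinarith [not_lt.1 hh]
  refine ⟨⌊K ^ κ⌋₊ + 1, by omega, ?_, ?_⟩
  · have h4 := Real.rpow_lt_rpow (by linarith) h2 h3
    rw [← Real.rpow_mul (by linarith), hθ, Real.rpow_one] at h4
    have h5 : (0 : ℝ) < (⌊K ^ κ⌋₊ + 1 : ℕ) := by linarith
    have h6 := mul_lt_mul_of_pos_right h4 (Real.rpow_pos_of_pos h5 θ)
    rwa [← Real.rpow_add h5, sub_add_cancel, Real.rpow_one] at h6
  · push_cast
    linarith [Nat.floor_le (show 0 ≤ K ^ κ by linarith)]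

theorem one_le_two_log {q : ℕ} (hq : 2 ≤ q) : 1 ≤ 2 * Real.log q := by
  have h1 : Real.log 2 ≤ Real.log q := Real.log_le_log (by norm_num) (by exact_mod_cast hq)
  linarith [Real.log_two_gt_d9]

theorem theta_of_eps {ε : ℝ} (hε : 0 < ε) :
    11 / 12 < 1 - 1 / (12 + ε) ∧ (12 + ε) * (1 - (1 - 1 / (12 + ε))) = 1 := by
  have h : 1 / (12 + ε) < 1 / 12 := one_div_lt_one_div_of_lt (by norm_num) (by linarith)
  exact ⟨by linarith, by field_simp; ring⟩

theorem prime_in_coset (h : QRH) {ε : ℝ} (hε : 0 < ε) : ∃ C : ℝ, ∀ q : ℕ, 2 ≤ q →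
    ∀ (H : Subgroup (ZMod q)ˣ) (a : (ZMod q)ˣ), ∃ (p : ℕ) (hp : p.Coprime q), p.Prime ∧
      (p : ℝ) ≤ C * (H.index * Real.log q) ^ (12 + ε) ∧ a⁻¹ * ZMod.unitOfCoprime p hp ∈ H := by
  obtain ⟨h1, h2⟩ := theta_of_eps hε
  obtain ⟨C, hC, hT⟩ := thetaBound h h1
  refine ⟨2 * (3 * C) ^ (12 + ε), fun q hq H a => ?_⟩
  have : NeZero q := ⟨by omega⟩
  have hl := one_le_two_log hq
  have hi : (1 : ℝ) ≤ H.index := by exact_mod_cast Nat.pos_of_ne_zero H.index_ne_zero_of_finite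
  have hK : 1 ≤ 3 * C * (H.index * Real.log q) := by
    have : 1 / 2 ≤ H.index * Real.log q := by nlinarith
    nlinarith
  obtain ⟨y, hy, hy1, hy2⟩ := exists_size (by linarith) h2 hK
  have h3 := (abs_le.1 (coset_sum hT H a hy)).1
  have h4 : C * (1 + Real.log q) * (y : ℝ) ^ (1 - 1 / (12 + ε)) < y / H.index := by
    rw [lt_div_iff₀ (by linarith)]
    refine lt_of_le_of_lt ?_ hy1
    have : C * (1 + Real.log q) * H.index ≤ 3 * C * (H.index * Real.log q) := by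
      have : C * H.index * (1 + Real.log q) ≤ C * H.index * (3 * Real.log q) :=
        mul_le_mul_of_nonneg_left (by linarith) (by positivity)
      linarith
    rw [mul_right_comm]
    exact mul_le_mul_of_nonneg_right this (by positivity)
  obtain ⟨p, hp⟩ := nonempty_of_sum_ne_zero
    (show ∑ n ∈ (Icc 1 y).filter Nat.Prime with InC H a n, Real.log n ≠ 0 by linarith)
  obtain ⟨hp1, hp2, hp3⟩ := mem_filter.1 hp
  refine ⟨p, hp2, (mem_filter.1 hp1).2, ?_, hp3⟩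
  have h5 : (p : ℝ) ≤ y := by exact_mod_cast (mem_Icc.1 (mem_filter.1 hp1).1).2
  rw [Real.mul_rpow (by positivity) (by positivity), ← mul_assoc] at hy2
  exact h5.trans hy2

theorem prime_outside (h : QRH) {ε : ℝ} (hε : 0 < ε) : ∃ C : ℝ, ∀ q : ℕ, 2 ≤ q →
    ∀ H : Subgroup (ZMod q)ˣ, H ≠ ⊤ → ∃ (p : ℕ) (hp : p.Coprime q), p.Prime ∧
      (p : ℝ) ≤ C * Real.log q ^ (12 + ε) ∧ ZMod.unitOfCoprime p hp ∉ H := by
  obtain ⟨h1, h2⟩ := theta_of_eps hε
  obtain ⟨C, hC, hT⟩ := thetaBound h h1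
  refine ⟨2 * (12 * C) ^ (12 + ε), fun q hq H hH => ?_⟩
  have : NeZero q := ⟨by omega⟩
  have hl := one_le_two_log hq
  have hi : (2 : ℝ) ≤ H.index := by exact_mod_cast Subgroup.one_lt_index_of_ne_top hH
  obtain ⟨y, hy, hy1, hy2⟩ := exists_size (K := 12 * C * Real.log q) (by linarith) h2
    (by nlinarith)
  have h3 := (abs_le.1 (coset_sum hT H 1 hy)).2
  have h4 := (abs_le.1 (coset_sum hT (⊤ : Subgroup (ZMod q)ˣ) 1 hy)).1
  rw [Subgroup.index_top, Nat.cast_one, div_one] at h4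
  have h5 : (y : ℝ) / H.index ≤ y / 2 := div_le_div_of_nonneg_left (by positivity) (by norm_num) hi
  have h6 : C * (1 + Real.log q) * (y : ℝ) ^ (1 - 1 / (12 + ε)) ≤
      C * (3 * Real.log q) * (y : ℝ) ^ (1 - 1 / (12 + ε)) := by
    gcongr
    linarith
  by_contra hcon
  push Not at hcon
  have h7 : ∑ n ∈ (Icc 1 y).filter Nat.Prime with InC (⊤ : Subgroup (ZMod q)ˣ) 1 n, Real.log n =
      ∑ n ∈ (Icc 1 y).filter Nat.Prime with InC H 1 n, Real.log n := by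
    refine sum_congr (filter_congr fun p hp => ⟨fun ⟨hp2, _⟩ => ⟨hp2, ?_⟩,
      fun ⟨hp2, _⟩ => ⟨hp2, trivial⟩⟩) fun _ _ => rfl
    have h8 : (p : ℝ) ≤ y := by exact_mod_cast (mem_Icc.1 (mem_filter.1 hp).1).2
    rw [Real.mul_rpow (by positivity) (by positivity), ← mul_assoc] at hy2
    simpa using hcon p hp2 (mem_filter.1 hp).2 (h8.trans hy2)
  linarith

end Vale.Agent.N026B
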