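import Vale.Agent.N026B.Miller
import Vale.Agent.P026Z.Final0
import Vale.Agent.P026Z.Poi.Main

/-!
# P026, third hand-in: the two suprema
-/

namespace Vale.Agent.N026B

open DirichletCharacter Vale.Agent.P005Z.PT

theorem qrh : QRH := fun _ _ χ _ hs h1 =>
  Vale.Agent.P026Z.Fin.LFunction_of Vale.Agent.P026Z.Poi.MB_of_TB χ hs h1

theorem zeta (s : ℂ) (hs : 11 / 12 < s.re) : riemannZeta s ≠ 0 :=
  Vale.Agent.P026Z.Fin.zeta_of Vale.Agent.P026Z.Poi.MB_of_TB hs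

theorem nontrivial (q : ℕ) [NeZero q] (χ : DirichletCharacter ℂ q) (s : ℂ) (h0 : LFunction χ s = 0)
    (h1 : s.re < 1) : s.re ≤ 11 / 12 :=
  not_lt.1 fun hs => qrh q χ s hs (Or.inr fun h => by simp [h] at h1) h0

theorem theta_le : (⨆ (ρ : ℂ) (_ : riemannZeta ρ = 0 ∧ 0 < ρ.re ∧ ρ.re < 1), (ρ.re : EReal)) ≤
    ⨆ (q : ℕ) (_ : NeZero q) (χ : DirichletCharacter ℂ q) (ρ : ℂ)
      (_ : LFunction χ ρ = 0 ∧ 0 < ρ.re ∧ ρ.re < 1), (ρ.re : EReal) :=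
  iSup₂_le fun ρ hρ => le_iSup_of_le 1 <| le_iSup_of_le inferInstance <| le_iSup_of_le 1 <|
    le_iSup_of_le ρ <| le_iSup_of_le (by rwa [LFunction_modOne_eq]) le_rfl

theorem thetaD_le : (⨆ (q : ℕ) (_ : NeZero q) (χ : DirichletCharacter ℂ q) (ρ : ℂ)
      (_ : LFunction χ ρ = 0 ∧ 0 < ρ.re ∧ ρ.re < 1), (ρ.re : EReal)) ≤ (11 / 12 : ℝ) :=
  iSup_le fun q => iSup_le fun _ => iSup_le fun χ => iSup₂_le fun ρ hρ =>
    EReal.coe_le_coe_iff.2 (nontrivial q χ ρ hρ.1 hρ.2.2)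

theorem subgroups (h : QRH) {ε : ℝ} (hε : 0 < ε) : ∃ C : ℝ, ∀ q : ℕ, 2 ≤ q →
    ∀ H : Subgroup (ZMod q)ˣ, (H ≠ ⊤ → ∃ (p : ℕ) (hp : p.Coprime q), p.Prime ∧
      p ≤ C * Real.log q ^ (12 + ε) ∧ ZMod.unitOfCoprime p hp ∉ H) ∧
    ∀ a : (ZMod q)ˣ, ∃ (p : ℕ) (hp : p.Coprime q), p.Prime ∧
      p ≤ C * (H.index * Real.log q) ^ (12 + ε) ∧ a⁻¹ * ZMod.unitOfCoprime p hp ∈ H := by
  obtain ⟨C, hC⟩ := prime_outside h hε
  obtain ⟨D, hD⟩ := prime_in_coset h hε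
  refine ⟨max C D, fun q hq H => ⟨fun hH => ?_, fun a => ?_⟩⟩
  · obtain ⟨p, hp, h1, h2, h3⟩ := hC q hq H hH
    exact ⟨p, hp, h1, h2.trans (mul_le_mul_of_nonneg_right (le_max_left _ _)
      (Real.rpow_nonneg (Real.log_natCast_nonneg q) _)), h3⟩
  · obtain ⟨p, hp, h1, h2, h3⟩ := hD q hq H a
    exact ⟨p, hp, h1, h2.trans (mul_le_mul_of_nonneg_right (le_max_right _ _)
      (Real.rpow_nonneg (mul_nonneg (Nat.cast_nonneg _) (Real.log_natCast_nonneg q)) _)), h3⟩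

end Vale.Agent.N026B
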