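import Vale.Agent.N026B.Prim

/-!
# P026, third hand-in: the strong probable prime test with small bases
-/

namespace Vale.Agent.N026B

open Finset Vale.Agent.P005Z.PT
open scoped Classical

/-- the units whose `e`-th power is `1` or `-1`. -/
def pm (n e : ℕ) : Subgroup (ZMod n)ˣ where
  carrier := {u | u ^ e = 1 ∨ u ^ e = -1}
  mul_mem' := by
    rintro a b (h | h) (h' | h') <;> simp [mul_pow, h, h']
  one_mem' := by simp
  inv_mem' := by
    rintro a (h | h) <;> simp [inv_pow, h]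

theorem pow_two_pow {M : Type} [Monoid M] [HasDistribNeg M] {u : M} {r s d : ℕ} (hr : r < s)
    (h : u ^ (2 ^ r * d) = -1) : u ^ (2 ^ s * d) = 1 := by
  obtain ⟨k, rfl⟩ := Nat.exists_eq_add_of_lt hr
  rw [show 2 ^ (r + k + 1) * d = 2 ^ r * d * (2 * 2 ^ k) by ring, pow_mul, h, pow_mul]
  simp

theorem one_add_pow {R : Type} [CommRing R] {x : R} (hx : x * x = 0) (k : ℕ) :
    (1 + x) ^ k = 1 + k * x := by
  induction k with
  | zero => simp
  | succ k ih => rw [pow_succ, ih]; push_cast; linear_combination (k : R) * hx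

theorem liars {n s d : ℕ} (hn : Odd n) (h1 : 1 < n) (hp : ¬ n.Prime) (hsd : n - 1 = 2 ^ s * d)
    (hd : Odd d) : ∃ H : Subgroup (ZMod n)ˣ, H ≠ ⊤ ∧ ∀ u : (ZMod n)ˣ,
      (u ^ d = 1 ∨ ∃ r < s, u ^ (2 ^ r * d) = -1) → u ∈ H := by
  have hone : ∀ (u : (ZMod n)ˣ) (k : ℕ), u ^ d = 1 → u ^ (2 ^ k * d) = 1 := fun u k h => by
    rw [mul_comm, pow_mul, h, one_pow]
  obtain ⟨p, hpp, m, rfl⟩ := Nat.exists_prime_and_dvd h1.ne'
  have hm1 : m ≠ 1 := fun h => hp (by rwa [h, mul_one])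
  have hm0 : m ≠ 0 := fun h => by simp [h] at h1
  by_cases hpm : p ∣ m
  · obtain ⟨k, hk⟩ := hpm
    have hn0 : ((p * m : ℕ) : ZMod (p * m)) = 0 := ZMod.natCast_self _
    have hx : (m : ZMod (p * m)) * m = 0 := by
      rw [← Nat.cast_mul, show m * m = p * m * k by rw [mul_comm p m, mul_assoc, ← hk],
        Nat.cast_mul, hn0, zero_mul]
    have hu : IsUnit (1 + (m : ZMod (p * m))) :=
      IsUnit.of_mul_eq_one (1 - m) (by linear_combination -hx)
    refine ⟨(powMonoidHom (2 ^ s * d)).ker, fun h => ?_, fun u hu => ?_⟩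
    · have h2 : hu.unit ^ (2 ^ s * d) = 1 := by
        have : hu.unit ∈ (powMonoidHom (2 ^ s * d) : (ZMod (p * m))ˣ →* _).ker := h ▸ trivial
        exact this
      have h3 := congrArg Units.val h2
      rw [Units.val_pow_eq_pow_val, IsUnit.unit_spec, one_add_pow hx, ← hsd,
        Nat.cast_sub h1.le, hn0] at h3
      have h4 : (m : ZMod (p * m)) = 0 := by
        simpa using h3
      rw [ZMod.natCast_eq_zero_iff] at h4
      have := Nat.le_of_dvd (Nat.pos_of_ne_zero hm0) h4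
      nlinarith [hpp.two_le, Nat.pos_of_ne_zero hm0]
    · rcases hu with hu | ⟨r, hr, hu⟩
      · exact hone u s hu
      · exact pow_two_pow hr hu
  · have hc : p.Coprime m := (Nat.Prime.coprime_iff_not_dvd hpp).2 hpm
    obtain ⟨ho1, ho2⟩ := Nat.odd_mul.1 hn
    have : Fact (2 < p) := ⟨by obtain ⟨a, ha⟩ := ho1; have := hpp.two_le; omega⟩
    have : Fact (2 < m) := ⟨by obtain ⟨a, ha⟩ := ho2; omega⟩
    have hs : 0 < s := Nat.pos_of_ne_zero fun h => by
      rw [h, pow_zero, one_mul] at hsd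
      obtain ⟨a, ha⟩ := hn
      obtain ⟨b, hb⟩ := hd
      omega
    let P : ℕ → Prop := fun r => r < s ∧ ∃ u : (ZMod (p * m))ˣ, u ^ (2 ^ r * d) = -1
    have hP0 : P 0 := ⟨hs, -1, by simpa using hd.neg_one_pow⟩
    obtain ⟨-, u₀, hu₀⟩ : P (Nat.findGreatest P s) := Nat.findGreatest_spec (Nat.zero_le s) hP0
    refine ⟨pm _ (2 ^ Nat.findGreatest P s * d), fun h => ?_, fun u hu => ?_⟩
    · let φ := ZMod.chineseRemainder hc
      have hw : IsUnit (φ.symm ((φ u₀).1, 1)) := by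
        refine IsUnit.map _ (Prod.isUnit_iff.2 ⟨?_, isUnit_one⟩)
        exact (Prod.isUnit_iff.1 (u₀.isUnit.map φ)).1
      have h2 : hw.unit ∈ pm _ (2 ^ Nat.findGreatest P s * d) := h ▸ trivial
      have h3 : φ ((hw.unit ^ (2 ^ Nat.findGreatest P s * d) : (ZMod (p * m))ˣ) : ZMod (p * m)) =
          (-1, 1) := by
        have h4 := congrArg (fun u : (ZMod (p * m))ˣ => (φ u).1) hu₀
        simp only [Units.val_pow_eq_pow_val, map_pow, Prod.pow_fst, Units.val_neg, Units.val_one,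
          map_neg, map_one, Prod.fst_neg, Prod.fst_one] at h4
        rw [Units.val_pow_eq_pow_val, IsUnit.unit_spec, map_pow, RingEquiv.apply_symm_apply,
          Prod.pow_mk, h4, one_pow]
      rcases h2 with h2 | h2 <;> rw [h2] at h3
      · exact ZMod.neg_one_ne_one (n := p) (by simpa using (congrArg Prod.fst h3).symm)
      · exact ZMod.neg_one_ne_one (n := m) (by simpa using congrArg Prod.snd h3)
    · rcases hu with hu | ⟨r, hr, hu⟩
      · exact Or.inl (hone u _ hu)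
      · rcases (Nat.le_findGreatest (P := P) hr.le ⟨hr, u, hu⟩).eq_or_lt with h | h
        · exact Or.inr (h ▸ hu)
        · exact Or.inl (pow_two_pow h hu)

theorem passes {F : Type} [Field F] {a : F} {d : ℕ} : ∀ {s : ℕ}, a ^ (2 ^ s * d) = 1 →
    a ^ d = 1 ∨ ∃ r < s, a ^ (2 ^ r * d) = -1
  | 0, h => Or.inl (by simpa using h)
  | s + 1, h => by
    rw [show 2 ^ (s + 1) * d = 2 ^ s * d * 2 by ring, pow_mul, sq, mul_self_eq_one_iff] at h
    rcases h with h | h
    · exact (passes h).imp_right fun ⟨r, hr, h'⟩ => ⟨r, by omega, h'⟩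
    · exact Or.inr ⟨s, by omega, h⟩

theorem miller (h : QRH) {ε : ℝ} (hε : 0 < ε) : ∃ C : ℝ, ∀ n s d : ℕ, Odd n → 1 < n →
    n - 1 = 2 ^ s * d → Odd d → (n.Prime ↔ ∀ a : ℕ, a.Prime → a ≠ n →
      (a : ℝ) ≤ C * Real.log n ^ (12 + ε) →
        (a : ZMod n) ^ d = 1 ∨ ∃ r < s, (a : ZMod n) ^ (2 ^ r * d) = -1) := by
  obtain ⟨C, H⟩ := prime_outside h hε
  refine ⟨C, fun n s d hn h1 hsd hd => ⟨fun hp a ha han _ => ?_, fun hall => ?_⟩⟩
  · have : Fact n.Prime := ⟨hp⟩
    refine passes ?_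
    rw [← hsd]
    refine ZMod.pow_card_sub_one_eq_one fun h0 => han ?_
    rw [ZMod.natCast_eq_zero_iff] at h0
    exact ((Nat.prime_dvd_prime_iff_eq hp ha).1 h0).symm
  · by_contra hp
    obtain ⟨K, hK, hK'⟩ := liars hn h1 hp hsd hd
    obtain ⟨p, hp1, hp2, hp3, hp4⟩ := H n h1 K hK
    refine hp4 (hK' _ ?_)
    have := hall p hp2 (fun h => hp (h ▸ hp2)) hp3
    simpa only [← Units.val_inj, Units.val_pow_eq_pow_val, ZMod.coe_unitOfCoprime, Units.val_one,
      Units.val_neg] using this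

end Vale.Agent.N026B
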