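import Vale.Agent.N026B.Cosets

/-!
# P026, third hand-in: the least prime primitive root
-/

namespace Vale.Agent.N026B

open Finset Vale.Agent.P005Z.PT
open scoped Classical

theorem forall_pow_div {G : Type} [Group G] {u : G} {N : ℕ} (hN : N ≠ 0) (hu : u ^ N = 1)
    {T : Finset ℕ} (hT : T ⊆ N.primeFactors) :
    (∀ l ∈ T, u ^ (N / l) = 1) ↔ u ^ (N / ∏ l ∈ T, l) = 1 := by
  have hd : ∏ l ∈ T, l ∣ N := (prod_dvd_prod_of_subset _ _ _ hT).trans (Nat.prod_primeFactors_dvd N)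
  obtain ⟨m, hm⟩ := orderOf_dvd_of_pow_eq_one hu
  have ho : 0 < orderOf u := Nat.pos_of_ne_zero fun h => hN (by rw [hm, h, zero_mul])
  have key : ∀ d, d ∣ N → (u ^ (N / d) = 1 ↔ d ∣ m) := fun d hd => by
    rw [← orderOf_dvd_iff_pow_eq_one, Nat.dvd_div_iff_mul_dvd hd, mul_comm]
    conv_lhs => rw [hm]
    exact Nat.mul_dvd_mul_iff_left ho
  rw [key _ hd]
  refine ⟨fun h => prod_primes_dvd m (fun l hl => (Nat.prime_of_mem_primeFactors (hT hl)).prime)
    fun l hl => (key l (Nat.dvd_of_mem_primeFactors (hT hl))).1 (h l hl), fun h l hl => ?_⟩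
  exact (key l (Nat.dvd_of_mem_primeFactors (hT hl))).2 ((dvd_prod_of_mem _ hl).trans h)

theorem card_primeFactors_le {N q : ℕ} (hN : N ≠ 0) (hq : 2 ≤ q) (hNq : N ≤ q) :
    (N.primeFactors.card : ℝ) + 1 ≤ 4 * Real.log q := by
  have h1 : 2 ^ N.primeFactors.card ≤ q :=
    (pow_card_le_prod _ (fun p => p) 2 fun p hp => (Nat.prime_of_mem_primeFactors hp).two_le).trans
      ((Nat.le_of_dvd (Nat.pos_of_ne_zero hN) (Nat.prod_primeFactors_dvd N)).trans hNq)
  have h2 : Real.log (2 ^ N.primeFactors.card) ≤ Real.log q :=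
    Real.log_le_log (by positivity) (by exact_mod_cast h1)
  rw [Real.log_pow] at h2
  have h3 := Real.log_two_gt_d9
  have h4 := one_le_two_log hq
  nlinarith [Nat.cast_nonneg (α := ℝ) N.primeFactors.card]

theorem primitive_root (h : QRH) : ∃ C : ℝ, ∀ q : ℕ, 2 ≤ q → IsCyclic (ZMod q)ˣ →
    ∃ p : ℕ, p.Prime ∧ (p : ℝ) ≤ C * Real.log q ^ 1183 ∧ orderOf (p : ZMod q) = q.totient := by
  obtain ⟨C, hC, hT⟩ := thetaBound h (θ := 12 / 13) (by norm_num)
  refine ⟨2 * (3 * C * 16 ^ 90) ^ 13, fun q hq hcyc => ?_⟩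
  have : NeZero q := ⟨by omega⟩
  have hl := one_le_two_log hq
  set N := q.totient with hNdef
  have hN : N ≠ 0 := (Nat.totient_pos.2 (by omega)).ne'
  have hcard : Nat.card (ZMod q)ˣ = N := by rw [Nat.card_eq_fintype_card, ZMod.card_units_eq_totient]
  have hr := card_primeFactors_le hN hq (Nat.totient_le q)
  have h16 : (1 : ℝ) ≤ (16 * Real.log q) ^ 90 := one_le_pow₀ (by linarith)
  obtain ⟨y, hy, hy1, hy2⟩ := exists_size (θ := 12 / 13) (κ := 13)
    (K := (16 * Real.log q) ^ 90 * (C * (3 * Real.log q))) (by norm_num) (by norm_num)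
    (one_le_mul_of_one_le_of_one_le h16 (by nlinarith))
  let v : ℕ → ℕ → ℝ := fun n l => if (n : ZMod q) ^ (N / l) = 1 then 1 else 0
  have hpow : ∀ n : ℕ, n.Coprime q → (n : ZMod q) ^ N = 1 := fun n hn => by
    rw [← ZMod.coe_unitOfCoprime n hn, ← Units.val_pow_eq_pow_val, ZMod.pow_totient, Units.val_one]
  obtain ⟨p, hp, hne⟩ := sieve N.primeFactors (fun p hp => Nat.prime_of_mem_primeFactors hp)
    (((Icc 1 y).filter Nat.Prime).filter fun n => n.Coprime q) (fun n => Real.log n)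
    (fun n => Real.log_natCast_nonneg n) v (fun n a => by simp only [v]; split_ifs <;> simp) y
    (C * (1 + Real.log q) * (y : ℝ) ^ (12 / 13 : ℝ)) (by positivity) (fun T hT' => by
      have hd : ∏ l ∈ T, l ∣ N :=
        (prod_dvd_prod_of_subset _ _ _ hT').trans (Nat.prod_primeFactors_dvd N)
      have h1 := coset_sum hT (powMonoidHom (N / ∏ l ∈ T, l) : (ZMod q)ˣ →* (ZMod q)ˣ).ker 1 hy
      rw [IsCyclic.index_powMonoidHom_ker, hcard, Nat.gcd_eq_right (Nat.div_dvd_of_dvd hd),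
        Nat.div_div_self hd hN] at h1
      have h2 : (y : ℝ) * ∏ l ∈ T, dn l = y / (∏ l ∈ T, l : ℕ) := by
        simp [dn, div_eq_mul_inv]
      have h3 : ∑ n ∈ ((Icc 1 y).filter Nat.Prime).filter fun n => n.Coprime q,
          Real.log n * ∏ l ∈ T, v n l = ∑ n ∈ (Icc 1 y).filter Nat.Prime with
          InC (powMonoidHom (N / ∏ l ∈ T, l) : (ZMod q)ˣ →* (ZMod q)ˣ).ker 1 n, Real.log n := by
        rw [sum_filter (fun n : ℕ => n.Coprime q), sum_filter (InC _ 1)]
        refine sum_congr rfl fun n _ => ?_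
        by_cases hn : n.Coprime q
        · have e : ∀ k, (n : ZMod q) ^ k = 1 ↔ ZMod.unitOfCoprime n hn ^ k = 1 := fun k => by
            rw [← Units.val_eq_one, Units.val_pow_eq_pow_val, ZMod.coe_unitOfCoprime]
          have e2 : InC (powMonoidHom (N / ∏ l ∈ T, l) : (ZMod q)ˣ →* (ZMod q)ˣ).ker 1 n ↔
              ∀ l ∈ T, (n : ZMod q) ^ (N / l) = 1 := by
            simp only [e]
            rw [forall_pow_div hN ((e N).1 (hpow n hn)) hT']
            exact ⟨fun h => by simpa using h.2, fun h => ⟨hn, by simpa using h⟩⟩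
          rw [if_pos hn, if_congr e2 rfl rfl]
          simp only [v, prod_boole]
          split_ifs <;> simp
        · rw [if_neg hn, if_neg fun h => hn h.1]
      rwa [h2, h3]) (by
      refine lt_of_le_of_lt ?_ hy1
      rw [← mul_assoc]
      exact mul_le_mul_of_nonneg_right (mul_le_mul (pow_le_pow_left₀ (by positivity)
        (by linarith) 90) (mul_le_mul_of_nonneg_left (by linarith) (by linarith))
        (by positivity) (by positivity)) (by positivity))
  obtain ⟨hp1, hp2⟩ := mem_filter.1 hp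
  refine ⟨p, (mem_filter.1 hp1).2, ?_, orderOf_eq_of_pow_and_pow_div_prime
    (Nat.pos_of_ne_zero hN) (hpow p hp2) fun l hl hlN h1 => hne ?_⟩
  · have h5 : (p : ℝ) ≤ y := by exact_mod_cast (mem_Icc.1 (mem_filter.1 hp1).1).2
    refine h5.trans (hy2.trans (le_of_eq ?_))
    rw [show (13 : ℝ) = (13 : ℕ) by norm_num, Real.rpow_natCast,
      show (16 * Real.log q) ^ 90 * (C * (3 * Real.log q)) =
        3 * C * 16 ^ 90 * Real.log q ^ 91 by ring, mul_pow, ← pow_mul, ← mul_assoc]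
  · exact prod_eq_zero (Nat.mem_primeFactors.2 ⟨hl, hlN, hN⟩) (by simp [v, h1])

/-- the squares of units. -/
theorem quadratic (h : QRH) {ε : ℝ} (hε : 0 < ε) : ∃ C : ℝ, ∀ (q : ℕ) [Fact q.Prime], q ≠ 2 →
    ∀ e : ℤ, e = 1 ∨ e = -1 → ∃ p : ℕ, p.Prime ∧ (p : ℝ) ≤ C * Real.log q ^ (12 + ε) ∧
      legendreSym q p = e := by
  obtain ⟨C, H⟩ := prime_in_coset h hε
  refine ⟨C * 2 ^ (12 + ε), fun q hq h2 e he => ?_⟩
  have hq2 := hq.out.two_le
  let χ : (ZMod q)ˣ →* ℤˣ := (quadraticChar (ZMod q)).toUnitHom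
  have hχ : ∀ u : (ZMod q)ˣ, (χ u : ℤ) = quadraticChar (ZMod q) u := fun u =>
    MulChar.coe_toUnitHom _ u
  obtain ⟨b, hb⟩ := quadraticChar_exists_neg_one' (F := ZMod q) (by rwa [ZMod.ringChar_zmod_n])
  have hs : Function.Surjective χ := fun z => by
    rcases Int.units_eq_one_or z with rfl | rfl
    · exact ⟨1, map_one χ⟩
    · exact ⟨b, Units.ext (by rw [hχ, hb]; rfl)⟩
  have hi : χ.ker.index = 2 := by
    rw [Subgroup.index_ker, MonoidHom.range_eq_top.2 hs, Subgroup.card_top,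
      Nat.card_eq_fintype_card, Fintype.card_units_int]
  obtain ⟨a, ha⟩ : ∃ a, (χ a : ℤ) = e := by
    rcases he with rfl | rfl
    · exact ⟨1, by rw [map_one]; rfl⟩
    · exact ⟨b, by rw [hχ, hb]⟩
  obtain ⟨p, hp, hp1, hp2, hp3⟩ := H q hq2 χ.ker a
  refine ⟨p, hp1, ?_, ?_⟩
  · rwa [hi, Real.mul_rpow (by positivity) (Real.log_natCast_nonneg q), ← mul_assoc,
      Nat.cast_ofNat] at hp2
  · rw [MonoidHom.mem_ker, map_mul, map_inv, inv_mul_eq_one] at hp3
    rw [← ha, hp3, hχ, ZMod.coe_unitOfCoprime, legendreSym, Int.cast_natCast]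

end Vale.Agent.N026B
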