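import Mathlib

/-!
# P026, third hand-in: a lower bound sieve (Brun-Hooley)
-/

namespace Vale.Agent.N026B

open Finset

/-- `F` is a combination of monomials in the variables of `R`, without repeated variables, with
coefficients of total size at most `M` (in dual form). -/
def ML (R : Finset ℕ) (M : ℝ) (F : (ℕ → ℝ) → ℝ) : Prop :=
  ∀ (Φ : ((ℕ → ℝ) → ℝ) →ₗ[ℝ] ℝ) (Δ : ℝ), (∀ T ⊆ R, |Φ fun v => ∏ l ∈ T, v l| ≤ Δ) →
    |Φ F| ≤ M * Δ

theorem ML.mono {R R' : Finset ℕ} {M M' : ℝ} {F : (ℕ → ℝ) → ℝ} (h : ML R M F) (hR : R ⊆ R')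
    (hM : M ≤ M') : ML R' M' F := fun Φ Δ hΦ =>
  (h Φ Δ fun T hT => hΦ T (hT.trans hR)).trans
    (mul_le_mul_of_nonneg_right hM ((abs_nonneg _).trans (hΦ ∅ (empty_subset _))))

theorem ML.one (R : Finset ℕ) : ML R 1 fun _ => 1 := fun Φ Δ hΦ => by
  simpa using hΦ ∅ (empty_subset _)

theorem ML.zero (R : Finset ℕ) : ML R 0 fun _ => 0 := fun Φ Δ _ => by
  rw [show (fun _ => 0 : (ℕ → ℝ) → ℝ) = 0 from rfl, map_zero]
  simp

theorem ML.var (a : ℕ) : ML {a} 1 fun v => v a := fun Φ Δ hΦ => by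
  simpa using hΦ {a} Subset.rfl

theorem ML.add {R : Finset ℕ} {M M' : ℝ} {F G : (ℕ → ℝ) → ℝ} (h : ML R M F) (h' : ML R M' G) :
    ML R (M + M') fun v => F v + G v := fun Φ Δ hΦ => by
  rw [show (fun v => F v + G v) = F + G from rfl, map_add, add_mul]
  exact (abs_add_le _ _).trans (add_le_add (h Φ Δ hΦ) (h' Φ Δ hΦ))

theorem ML.sub {R : Finset ℕ} {M M' : ℝ} {F G : (ℕ → ℝ) → ℝ} (h : ML R M F) (h' : ML R M' G) :
    ML R (M + M') fun v => F v - G v := fun Φ Δ hΦ => by
  rw [show (fun v => F v - G v) = F - G from rfl, map_sub, add_mul]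
  exact (abs_sub _ _).trans (add_le_add (h Φ Δ hΦ) (h' Φ Δ hΦ))

theorem ML.mul {R R' : Finset ℕ} {M M' : ℝ} {F G : (ℕ → ℝ) → ℝ} (h : ML R M F) (h' : ML R' M' G)
    (hd : Disjoint R R') : ML (R ∪ R') (M * M') fun v => F v * G v := fun Φ Δ hΦ => by
  have h1 : ∀ T ⊆ R', |(Φ.comp (LinearMap.mulLeft ℝ F)) fun v => ∏ l ∈ T, v l| ≤ M * Δ := by
    intro T hT
    refine h (Φ.comp (LinearMap.mulRight ℝ fun v => ∏ l ∈ T, v l)) Δ fun T' hT' => ?_
    have := hΦ (T' ∪ T) (union_subset_union hT' hT)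
    simp only [prod_union (hd.mono hT' hT)] at this
    exact this
  have := h' _ _ h1
  rw [mul_comm M M', mul_assoc]
  exact this

/-- elementary symmetric functions. -/
def es : ℕ → List ℕ → (ℕ → ℝ) → ℝ
  | 0, _, _ => 1
  | _ + 1, [], _ => 0
  | k + 1, a :: l, v => es (k + 1) l v + v a * es k l v

/-- truncated inclusion-exclusion. -/
def bf : ℕ → List ℕ → (ℕ → ℝ) → ℝ
  | 0, _, _ => 1
  | _ + 1, [], _ => 1
  | k + 1, a :: l, v => bf (k + 1) l v - v a * bf k l v

theorem bf_succ (k : ℕ) (l : List ℕ) (v : ℕ → ℝ) :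
    bf (k + 1) l v = bf k l v + (-1) ^ (k + 1) * es (k + 1) l v := by
  induction l generalizing k with
  | nil => cases k <;> simp [bf, es]
  | cons a l ih =>
    cases k with
    | zero =>
      have := ih 0
      simp only [bf, es] at this ⊢
      rw [this]
      ring
    | succ k =>
      have h1 := ih (k + 1)
      have h2 := ih k
      rw [bf, es, bf, h1]
      linear_combination (-v a) * h2

theorem prod_one_sub_mem {v : ℕ → ℝ} (hv : ∀ a, 0 ≤ v a ∧ v a ≤ 1) (l : List ℕ) :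
    0 ≤ (l.map fun a => 1 - v a).prod ∧ (l.map fun a => 1 - v a).prod ≤ 1 := by
  induction l with
  | nil => simp
  | cons a l ih =>
    rw [List.map_cons, List.prod_cons]
    have := hv a
    exact ⟨mul_nonneg (by linarith) ih.1, mul_le_one₀ (by linarith) ih.1 ih.2⟩

theorem bonferroni {v : ℕ → ℝ} (hv : ∀ a, 0 ≤ v a ∧ v a ≤ 1) (k : ℕ) (l : List ℕ) :
    0 ≤ (-1) ^ k * (bf k l v - (l.map fun a => 1 - v a).prod) := by
  induction l generalizing k with
  | nil => cases k <;> simp [bf]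
  | cons a l ih =>
    cases k with
    | zero => simpa [bf] using (prod_one_sub_mem hv (a :: l)).2
    | succ k =>
      have h1 := ih (k + 1)
      have h2 := mul_nonneg (hv a).1 (ih k)
      rw [bf, List.map_cons, List.prod_cons]
      have : (-1 : ℝ) ^ (k + 1) * (bf (k + 1) l v - v a * bf k l v -
          (1 - v a) * (l.map fun a => 1 - v a).prod) =
          (-1) ^ (k + 1) * (bf (k + 1) l v - (l.map fun a => 1 - v a).prod) +
          v a * ((-1) ^ k * (bf k l v - (l.map fun a => 1 - v a).prod)) := by ring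
      rw [this]
      exact add_nonneg h1 h2

theorem es_le {v : ℕ → ℝ} (hv : ∀ a, 0 ≤ v a) (k : ℕ) (l : List ℕ) :
    es k l v ≤ (l.map v).sum ^ k / k.factorial := by
  induction l generalizing k with
  | nil => cases k <;> simp [es]
  | cons a l ih =>
    cases k with
    | zero => simp [es]
    | succ k =>
      have hs : 0 ≤ (l.map v).sum := List.sum_nonneg fun x hx => by
        obtain ⟨b, -, rfl⟩ := List.mem_map.1 hx
        exact hv b
      have h1 := pow_add_mul_le_add_pow hs (b := v a) (by linarith [hv a]) (k + 1)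
      have hk : (0 : ℝ) < k.factorial := by positivity
      rw [es, List.map_cons, List.sum_cons, add_comm (v a)]
      refine (add_le_add (ih (k + 1)) (mul_le_mul_of_nonneg_left (ih k) (hv a))).trans ?_
      refine le_trans (le_of_eq ?_) (div_le_div_of_nonneg_right h1 (by positivity))
      rw [Nat.factorial_succ]
      push_cast
      field_simp

theorem ml_step {l : List ℕ} {a : ℕ} (ha : a ∉ l) {k : ℕ} {G : (ℕ → ℝ) → ℝ}
    (hG : ML l.toFinset ((l.length + 1) ^ k) G) :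
    ML (a :: l).toFinset ((l.length + 1) ^ k) fun v => v a * G v := by
  have := (ML.var a).mul hG (by simpa using ha)
  refine this.mono (fun x hx => ?_) (by simp)
  simpa using hx

theorem pow_step (n k : ℕ) : ((n : ℝ) + 1) ^ (k + 1) + (n + 1) ^ k ≤ ((n + 1 : ℕ) + 1) ^ (k + 1) := by
  have h : ((n : ℝ) + 1) ^ k ≤ ((n + 1 : ℕ) + 1) ^ k := by
    gcongr
    omega
  rw [pow_succ, pow_succ]
  push_cast at h ⊢
  nlinarith [pow_nonneg (show (0 : ℝ) ≤ n + 1 by positivity) k, Nat.cast_nonneg (α := ℝ) n]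

theorem ml_es (k : ℕ) {l : List ℕ} (hl : l.Nodup) :
    ML l.toFinset ((l.length + 1) ^ k) (es k l) := by
  induction l generalizing k with
  | nil =>
    cases k with
    | zero => simpa [es] using ML.one ∅
    | succ k => exact (ML.zero _).mono Subset.rfl (by simp)
  | cons a l ih =>
    cases k with
    | zero => simpa [es] using ML.one _
    | succ k =>
      rw [List.nodup_cons] at hl
      exact (((ih (k + 1) hl.2).mono (fun x hx => by simp [List.mem_toFinset.1 hx]) le_rfl).add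
        (ml_step hl.1 (ih k hl.2))).mono Subset.rfl (pow_step _ _)

theorem ml_bf (k : ℕ) {l : List ℕ} (hl : l.Nodup) :
    ML l.toFinset ((l.length + 1) ^ k) (bf k l) := by
  induction l generalizing k with
  | nil =>
    cases k with
    | zero => simpa [bf] using ML.one ∅
    | succ k => exact (ML.one _).mono Subset.rfl (by simp)
  | cons a l ih =>
    cases k with
    | zero => simpa [bf] using ML.one _
    | succ k =>
      rw [List.nodup_cons] at hl
      exact (((ih (k + 1) hl.2).mono (fun x hx => by simp [List.mem_toFinset.1 hx]) le_rfl).sub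
        (ml_step hl.1 (ih k hl.2))).mono Subset.rfl (pow_step _ _)

/-- the densities. -/
noncomputable def dn (l : ℕ) : ℝ := 1 / l

theorem dn_mem (l : ℕ) : 0 ≤ dn l ∧ dn l ≤ 1 := by
  refine ⟨by unfold dn; positivity, ?_⟩
  rcases Nat.eq_zero_or_pos l with rfl | h
  · simp [dn]
  · exact div_le_one_of_le₀ (by exact_mod_cast h) (by positivity)

/-- an upper and a lower sieve for the variables in `R`. -/
def Good (R : Finset ℕ) (M η : ℝ) : Prop :=
  ∃ U Lo : (ℕ → ℝ) → ℝ, ML R M U ∧ ML R M Lo ∧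
    (∀ v : ℕ → ℝ, (∀ a, 0 ≤ v a ∧ v a ≤ 1) →
      Lo v ≤ ∏ a ∈ R, (1 - v a) ∧ ∏ a ∈ R, (1 - v a) ≤ U v) ∧ (1 - η) * U dn ≤ Lo dn

theorem prod_nonneg' {v : ℕ → ℝ} (hv : ∀ a, 0 ≤ v a ∧ v a ≤ 1) (R : Finset ℕ) :
    0 ≤ ∏ a ∈ R, (1 - v a) := prod_nonneg fun a _ => by linarith [(hv a).2]

theorem Good.mono {R : Finset ℕ} {M M' η η' : ℝ} (h : Good R M η) (hM : M ≤ M') (hη : η ≤ η') :
    Good R M' η' := by
  obtain ⟨U, Lo, h1, h2, h3, h4⟩ := h
  refine ⟨U, Lo, h1.mono Subset.rfl hM, h2.mono Subset.rfl hM, h3, le_trans ?_ h4⟩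
  exact mul_le_mul_of_nonneg_right (by linarith) ((prod_nonneg' dn_mem R).trans (h3 dn dn_mem).2)

theorem good_empty : Good ∅ 1 0 :=
  ⟨fun _ => 1, fun _ => 1, ML.one _, ML.one _, fun _ _ => by simp, by simp⟩

theorem Good.step {R B : Finset ℕ} {M η η' : ℝ} (h : Good R M η) (hM : 0 ≤ M) (hd : Disjoint B R)
    {k : ℕ} (hk : Even k) (hη : 0 ≤ η')
    (he : (∑ a ∈ B, dn a) ^ (k + 1) / (k + 1).factorial ≤ η' * ∏ a ∈ B, (1 - dn a)) :
    Good (B ∪ R) (2 * (B.card + 1) ^ (k + 1) * M) (η + η') := by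
  obtain ⟨U, Lo, h1, h2, h3, h4⟩ := h
  have hl := B.nodup_toList
  have a1 := ml_bf k hl
  have a2 := ml_es (k + 1) hl
  rw [toList_toFinset, length_toList] at a1 a2
  have hp : ((B.card : ℝ) + 1) ^ k ≤ (B.card + 1) ^ (k + 1) :=
    pow_le_pow_right₀ (by linarith [Nat.cast_nonneg (α := ℝ) B.card]) (Nat.le_succ k)
  have hp0 : (0 : ℝ) ≤ (B.card + 1) ^ k := by positivity
  have hb : ∀ v : ℕ → ℝ, (∀ a, 0 ≤ v a ∧ v a ≤ 1) → ∏ a ∈ B, (1 - v a) ≤ bf k B.toList v ∧
      bf k B.toList v - ∏ a ∈ B, (1 - v a) ≤ es (k + 1) B.toList v := by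
    intro v hv
    have b1 := bonferroni hv k B.toList
    have b2 := bonferroni hv (k + 1) B.toList
    rw [bf_succ, pow_succ, hk.neg_one_pow, prod_map_toList] at b2
    rw [hk.neg_one_pow, prod_map_toList] at b1
    constructor <;> linarith
  refine ⟨fun v => bf k B.toList v * U v, fun v => bf k B.toList v * Lo v - es (k + 1) B.toList v * U v,
    (a1.mul h1 hd).mono Subset.rfl (by nlinarith),
    ((a1.mul h2 hd).sub (a2.mul h1 hd)).mono Subset.rfl (by nlinarith), fun v hv => ?_, ?_⟩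
  · obtain ⟨c1, c2⟩ := hb v hv
    obtain ⟨c3, c4⟩ := h3 v hv
    have c5 := prod_nonneg' hv B
    have c6 := prod_nonneg' hv R
    rw [prod_union hd]
    refine ⟨?_, mul_le_mul c1 c4 c6 (c5.trans c1)⟩
    have d1 := mul_le_mul_of_nonneg_left c3 (c5.trans c1)
    have d2 := mul_le_mul c2 c4 c6 (le_trans (by linarith) c2)
    nlinarith
  · obtain ⟨c1, -⟩ := hb dn dn_mem
    have c5 := prod_nonneg' dn_mem B
    have c6 := (prod_nonneg' dn_mem R).trans (h3 dn dn_mem).2
    have e1 := es_le (fun a => (dn_mem a).1) (k + 1) B.toList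
    rw [sum_map_toList] at e1
    have e2 : es (k + 1) B.toList dn ≤ η' * bf k B.toList dn :=
      e1.trans (he.trans (mul_le_mul_of_nonneg_left c1 hη))
    have d1 := mul_le_mul_of_nonneg_left h4 (c5.trans c1)
    have d2 := mul_le_mul_of_nonneg_right e2 c6
    nlinarith

end Vale.Agent.N026B
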